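import Mathlib
import Vale.Agent.Lib.P248.helper1.ConeAux

/-!
# P248 pool job CQC2 (third copy, helper28): volume of the slab model
-/

namespace Vale.Agent.Lib.P248.H28

open MeasureTheory Set
open scoped ENNReal Pointwise
open Vale.Agent.Lib.P227 Vale.Agent.Lib.P248.H1

theorem continuous_coord_zero (n : ℕ) :
    Continuous (fun y : EuclideanSpace ℝ (Fin (n + 1)) => y 0) :=
  (continuous_apply (0 : Fin (n + 1))).comp (PiLp.continuous_ofLp 2 _)

theorem isClosed_polarModel {n : ℕ} (D : Set (EuclideanSpace ℝ (Fin n)))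
    (ζ : EuclideanSpace ℝ (Fin n)) (τ : ℝ) : IsClosed (polarModel D ζ τ) := by
  have e : polarModel D ζ τ
      = ({y : EuclideanSpace ℝ (Fin (n + 1)) | -1 / τ ≤ y 0} ∩ {y | y 0 ≤ 1 / (1 - τ)})
        ∩ ⋂ d ∈ D, {y : EuclideanSpace ℝ (Fin (n + 1)) |
            inner ℝ (d - ζ) (etail y) ≤ 1 + τ * y 0} := by
    ext y
    constructor
    · rintro ⟨h1, h2, h3⟩
      exact ⟨⟨h1, h2⟩, mem_iInter₂.2 h3⟩
    · rintro ⟨⟨h1, h2⟩, h3⟩
      have h3' : ∀ d ∈ D, y ∈ {y : EuclideanSpace ℝ (Fin (n + 1)) |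
          inner ℝ (d - ζ) (etail y) ≤ 1 + τ * y 0} := mem_iInter₂.1 h3
      exact ⟨h1, h2, h3'⟩
  rw [e]
  refine IsClosed.inter (IsClosed.inter (isClosed_le continuous_const (continuous_coord_zero n))
    (isClosed_le (continuous_coord_zero n) continuous_const)) ?_
  refine isClosed_biInter (fun d _ => ?_)
  exact isClosed_le (Continuous.inner continuous_const continuous_etail)
    (continuous_const.add (continuous_const.mul (continuous_coord_zero n)))

theorem measurableSet_polarModel {n : ℕ} (D : Set (EuclideanSpace ℝ (Fin n)))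
    (ζ : EuclideanSpace ℝ (Fin n)) (τ : ℝ) : MeasurableSet (polarModel D ζ τ) :=
  (isClosed_polarModel D ζ τ).measurableSet

theorem lintegral_slab (n : ℕ) (τ : ℝ) (hτ0 : 0 < τ) (hτ1 : τ < 1) :
    ∫⁻ s in Ioc (-1 / τ) (1 / (1 - τ)), ENNReal.ofReal ((1 + τ * s) ^ n)
      = ENNReal.ofReal (1 / ((n + 1) * τ * (1 - τ) ^ (n + 1))) := by
  have hτ1' : 0 < 1 - τ := by linarith
  have hab : -1 / τ ≤ 1 / (1 - τ) := by
    have h1 : -1 / τ < 0 := div_neg_of_neg_of_pos (by norm_num) hτ0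
    have h2 : 0 < 1 / (1 - τ) := div_pos one_pos hτ1'
    linarith
  have hnn : ∀ s ∈ Ioc (-1 / τ) (1 / (1 - τ)), 0 ≤ (1 + τ * s) ^ n := by
    intro s hs
    have h1 : -1 / τ < s := hs.1
    rw [div_lt_iff₀ hτ0] at h1
    exact pow_nonneg (by nlinarith) n
  have hint : IntegrableOn (fun s : ℝ => (1 + τ * s) ^ n) (Ioc (-1 / τ) (1 / (1 - τ))) :=
    Continuous.integrableOn_Ioc (by fun_prop)
  rw [← ofReal_integral_eq_lintegral_ofReal hint
    ((ae_restrict_iff' measurableSet_Ioc).2 (Filter.Eventually.of_forall hnn))]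
  congr 1
  rw [← intervalIntegral.integral_of_le hab,
    intervalIntegral.integral_comp_add_mul (fun u : ℝ => u ^ n) hτ0.ne' 1, integral_pow]
  have e1 : 1 + τ * (-1 / τ) = 0 := by
    field_simp
    ring
  have e2 : 1 + τ * (1 / (1 - τ)) = 1 / (1 - τ) := by
    field_simp
    ring
  rw [e1, e2, smul_eq_mul, zero_pow (Nat.succ_ne_zero n), sub_zero, one_div, inv_pow]
  have hn : (0 : ℝ) < (n : ℝ) + 1 := by positivity
  field_simp

theorem vol_polarModel_ge {n : ℕ} (D : Set (EuclideanSpace ℝ (Fin n)))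
    (ζ : EuclideanSpace ℝ (Fin n)) (τ : ℝ) (hτ0 : 0 < τ) (hτ1 : τ < 1) :
    ENNReal.ofReal (1 / ((n + 1) * τ * (1 - τ) ^ (n + 1))) * volume (polarAt D ζ)
      ≤ volume (polarModel D ζ τ) := by
  have hsec : ∀ s ∈ Ioc (-1 / τ) (1 / (1 - τ)),
      ENNReal.ofReal ((1 + τ * s) ^ n) * volume (polarAt D ζ)
        ≤ volume (sec s (polarModel D ζ τ)) := by
    intro s hs
    have h0 : -1 / τ < s := hs.1
    have h1 : 0 ≤ 1 + τ * s := by
      rw [div_lt_iff₀ hτ0] at h0
      nlinarith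
    have hsub : (1 + τ * s) • polarAt D ζ ⊆ sec s (polarModel D ζ τ) := by
      rintro w ⟨η, hη, rfl⟩
      show ecomb s ((1 + τ * s) • η) ∈ polarModel D ζ τ
      refine ⟨?_, ?_, ?_⟩
      · rw [ecomb_zero]
        exact hs.1.le
      · rw [ecomb_zero]
        exact hs.2
      · intro d hd
        rw [etail_ecomb, ecomb_zero, inner_smul_right]
        have h2 : inner ℝ (d - ζ) η ≤ 1 := hη d hd
        nlinarith
    calc ENNReal.ofReal ((1 + τ * s) ^ n) * volume (polarAt D ζ)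
        = volume ((1 + τ * s) • polarAt D ζ) := by
          rw [Measure.addHaar_smul, finrank_euclideanSpace_fin, abs_of_nonneg (pow_nonneg h1 n)]
      _ ≤ volume (sec s (polarModel D ζ τ)) := measure_mono hsub
  have hmeas : Measurable (fun s : ℝ => ENNReal.ofReal ((1 + τ * s) ^ n)) :=
    (Continuous.measurable (by fun_prop)).ennreal_ofReal
  rw [volume_eq_lintegral_sec (measurableSet_polarModel D ζ τ)]
  calc ENNReal.ofReal (1 / ((n + 1) * τ * (1 - τ) ^ (n + 1))) * volume (polarAt D ζ)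
      = (∫⁻ s in Ioc (-1 / τ) (1 / (1 - τ)), ENNReal.ofReal ((1 + τ * s) ^ n))
          * volume (polarAt D ζ) := by rw [lintegral_slab n τ hτ0 hτ1]
    _ = ∫⁻ s in Ioc (-1 / τ) (1 / (1 - τ)),
          ENNReal.ofReal ((1 + τ * s) ^ n) * volume (polarAt D ζ) :=
        (lintegral_mul_const _ hmeas).symm
    _ ≤ ∫⁻ s in Ioc (-1 / τ) (1 / (1 - τ)), volume (sec s (polarModel D ζ τ)) :=
        setLIntegral_mono' measurableSet_Ioc hsec
    _ ≤ ∫⁻ s, volume (sec s (polarModel D ζ τ)) := setLIntegral_le_lintegral _ _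

end Vale.Agent.Lib.P248.H28
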