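import Mathlib
import Vale.Agent.Lib.P248.helper1.ConeDefs

/-!
# P248 pool job SPF (helper28): the polar about a point is measurable; a factorial bound
-/

namespace Vale.Agent.Lib.P248.H28Y

open MeasureTheory Set
open scoped ENNReal
open Vale.Agent.Lib.P248.H1

theorem isClosed_polarAt {m : ℕ} (S : Set (EuclideanSpace ℝ (Fin m)))
    (z : EuclideanSpace ℝ (Fin m)) : IsClosed (polarAt S z) := by
  have e : polarAt S z
      = ⋂ x ∈ S, {y : EuclideanSpace ℝ (Fin m) | inner ℝ (x - z) y ≤ 1} := by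
    ext y
    constructor
    · intro hy
      have hy' : ∀ x ∈ S, inner ℝ (x - z) y ≤ 1 := hy
      have hy'' : ∀ x ∈ S, y ∈ {y : EuclideanSpace ℝ (Fin m) | inner ℝ (x - z) y ≤ 1} := hy'
      exact mem_iInter₂.2 hy''
    · intro hy
      have hy' : ∀ x ∈ S, y ∈ {y : EuclideanSpace ℝ (Fin m) | inner ℝ (x - z) y ≤ 1} :=
        mem_iInter₂.1 hy
      exact hy'
  rw [e]
  exact isClosed_biInter (fun x _ => isClosed_le (Continuous.inner continuous_const continuous_id)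
    continuous_const)

theorem measurableSet_polarAt {m : ℕ} (S : Set (EuclideanSpace ℝ (Fin m)))
    (z : EuclideanSpace ℝ (Fin m)) : MeasurableSet (polarAt S z) :=
  (isClosed_polarAt S z).measurableSet

theorem pow_key (k : ℕ) (hk : 1 ≤ k) :
    ((k : ℝ) + 2) ^ (k + 2) * (k : ℝ) ^ (k + 1) ≤ ((k : ℝ) + 1) ^ (2 * k + 3) := by
  have hx : (0 : ℝ) < (k : ℝ) := by exact_mod_cast hk
  have hB := one_add_mul_le_pow (a := 1 / ((k : ℝ) * ((k : ℝ) + 2)))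
    (by
      have : (0 : ℝ) ≤ 1 / ((k : ℝ) * ((k : ℝ) + 2)) := by positivity
      linarith) (k + 2)
  have e1 : 1 + ((k + 2 : ℕ) : ℝ) * (1 / ((k : ℝ) * ((k : ℝ) + 2))) = ((k : ℝ) + 1) / (k : ℝ) := by
    push_cast
    field_simp
  have e2 : 1 + 1 / ((k : ℝ) * ((k : ℝ) + 2)) = ((k : ℝ) + 1) ^ 2 / ((k : ℝ) * ((k : ℝ) + 2)) := by
    field_simp
    ring
  rw [e1, e2, div_pow, mul_pow, div_le_div_iff₀ hx (by positivity)] at hB
  have hpos : (0 : ℝ) < ((k : ℝ) + 1) * (k : ℝ) := by positivity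
  refine le_of_mul_le_mul_left ?_ hpos
  calc ((k : ℝ) + 1) * (k : ℝ) * (((k : ℝ) + 2) ^ (k + 2) * (k : ℝ) ^ (k + 1))
      = ((k : ℝ) + 1) * ((k : ℝ) ^ (k + 2) * ((k : ℝ) + 2) ^ (k + 2)) := by ring
    _ ≤ (((k : ℝ) + 1) ^ 2) ^ (k + 2) * (k : ℝ) := hB
    _ = ((k : ℝ) + 1) * (k : ℝ) * ((k : ℝ) + 1) ^ (2 * k + 3) := by
        rw [← pow_mul]
        ring

theorem succ_pow_le_four_mul (k : ℕ) (hk : 1 ≤ k) :
    ((k : ℝ) + 1) ^ (k + 1) ≤ 4 * (k : ℝ) ^ (k + 1) := by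
  induction k, hk using Nat.le_induction with
  | base => norm_num
  | succ k hk ih =>
    have hx : (0 : ℝ) < (k : ℝ) := by exact_mod_cast hk
    have hA := pow_key k hk
    have hpos : (0 : ℝ) < (k : ℝ) ^ (k + 1) := by positivity
    push_cast
    have e : (k : ℝ) + 1 + 1 = (k : ℝ) + 2 := by ring
    rw [e]
    refine le_of_mul_le_mul_right ?_ hpos
    calc ((k : ℝ) + 2) ^ (k + 1 + 1) * (k : ℝ) ^ (k + 1)
        = ((k : ℝ) + 2) ^ (k + 2) * (k : ℝ) ^ (k + 1) := by ring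
      _ ≤ ((k : ℝ) + 1) ^ (2 * k + 3) := hA
      _ = ((k : ℝ) + 1) ^ (k + 2) * ((k : ℝ) + 1) ^ (k + 1) := by ring
      _ ≤ ((k : ℝ) + 1) ^ (k + 2) * (4 * (k : ℝ) ^ (k + 1)) :=
          mul_le_mul_of_nonneg_left ih (by positivity)
      _ = 4 * ((k : ℝ) + 1) ^ (k + 1 + 1) * (k : ℝ) ^ (k + 1) := by ring

theorem succ_pow_le_four_pow_factorial (n : ℕ) :
    ((n : ℝ) + 1) ^ (n + 1) ≤ 4 ^ n * (n.factorial : ℝ) := by
  induction n with
  | zero => norm_num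
  | succ n ih =>
    have hS := succ_pow_le_four_mul (n + 1) (by omega)
    push_cast at hS ⊢
    have hn : (0 : ℝ) ≤ (n : ℝ) + 1 := by positivity
    rw [Nat.factorial_succ]
    push_cast
    calc ((n : ℝ) + 1 + 1) ^ (n + 1 + 1)
        ≤ 4 * ((n : ℝ) + 1) ^ (n + 1 + 1) := hS
      _ = 4 * ((n : ℝ) + 1) * ((n : ℝ) + 1) ^ (n + 1) := by ring
      _ ≤ 4 * ((n : ℝ) + 1) * (4 ^ n * (n.factorial : ℝ)) :=
          mul_le_mul_of_nonneg_left ih (by positivity)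
      _ = 4 ^ (n + 1) * (((n : ℝ) + 1) * (n.factorial : ℝ)) := by ring

end Vale.Agent.Lib.P248.H28Y
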