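import Mathlib
import Vale.Agent.Lib.P248.helper37.Q2Defs
import Vale.Agent.Lib.P248.helper37.Final

/-!
# P248 pool job Q2AB-J10 (third copy, helper28): the tree of an admissible pair is Ok

`tree_ok_of` takes the leaf statements of the pool skeleton as hypotheses.
-/

open MeasureTheory Set

namespace Vale.Agent.Lib.P248.H28Q

open Vale.Agent.Lib.P248.H37 Vale.Agent.Lib.P248.H37Q

theorem tree_succ (n : ℕ) (A : Set (Fin (n + 1) → ℝ)) (z : Fin (n + 1) → ℝ) :
    tree (n + 1) A z = LT.node (((n + 1).factorial : ℝ) * vT A z * ∏ i, z i)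
      (((n + 1).factorial : ℝ) * vA A / ∏ i, z i)
      (fun i => tree n (sec A i) (fun k => z (i.succAbove k))) := rfl

theorem tree_u (hvT0 : ∀ (A : Set (Fin 0 → ℝ)) (z : Fin 0 → ℝ), vT A z = 1) :
    ∀ (m : ℕ) (A : Set (Fin m → ℝ)) (z : Fin m → ℝ),
      (tree m A z).u = (m.factorial : ℝ) * vT A z * ∏ i, z i := by
  intro m
  cases m with
  | zero =>
    intro A z
    show (1 : ℝ) = ((0 : ℕ).factorial : ℝ) * vT A z * ∏ i, z i
    rw [hvT0, Nat.factorial_zero, Nat.cast_one, Finset.univ_eq_empty, Finset.prod_empty,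
      mul_one, mul_one]
  | succ n =>
    intro A z
    rfl

theorem tree_b (hvA0 : ∀ {A : Set (Fin 0 → ℝ)}, Good A → vA A = 1) :
    ∀ (m : ℕ) (A : Set (Fin m → ℝ)) (z : Fin m → ℝ), Good A →
      (tree m A z).b = (m.factorial : ℝ) * vA A / ∏ i, z i := by
  intro m
  cases m with
  | zero =>
    intro A z hA
    show (1 : ℝ) = ((0 : ℕ).factorial : ℝ) * vA A / ∏ i, z i
    rw [hvA0 hA, Nat.factorial_zero, Nat.cast_one, Finset.univ_eq_empty, Finset.prod_empty,
      mul_one, div_one]
  | succ n =>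
    intro A z _
    rfl

theorem tree_ok_of
    (cone_ineq_convex : ∀ (n : ℕ) (M : Set (Fin (n + 1) → ℝ)), IsCompact M → Convex ℝ M →
      (∀ p ∈ M, ∀ i, 0 ≤ p i) → ∀ y : Fin (n + 1) → ℝ, y ∈ M →
      ∑ i, ENNReal.ofReal (y i) * volume (sec M i) ≤ ((n : ENNReal) + 1) * volume M)
    (sec_posZ : ∀ {n : ℕ} {A : Set (Fin (n + 1) → ℝ)}, Good A → ∀ (z : Fin (n + 1) → ℝ)
      (i : Fin (n + 1)), sec (posZ A z) i = posZ (sec A i) (fun k => z (i.succAbove k)))
    (adm_sec : ∀ {n : ℕ} {A : Set (Fin (n + 1) → ℝ)} {z : Fin (n + 1) → ℝ}, Adm A z →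
      ∀ i : Fin (n + 1), Adm (sec A i) (fun k => z (i.succAbove k)))
    (isCompact_posZ : ∀ {m : ℕ} {A : Set (Fin m → ℝ)} {z : Fin m → ℝ}, Adm A z →
      IsCompact (posZ A z))
    (convex_posZ : ∀ {m : ℕ} (A : Set (Fin m → ℝ)) (z : Fin m → ℝ), Convex ℝ (posZ A z))
    (vT_pos : ∀ {m : ℕ} {A : Set (Fin m → ℝ)} {z : Fin m → ℝ}, Adm A z → 0 < vT A z)
    (volume_posZ_ne_top : ∀ {m : ℕ} {A : Set (Fin m → ℝ)} {z : Fin m → ℝ}, Adm A z →
      volume (posZ A z) ≠ ⊤)
    (vA_pos : ∀ {m : ℕ} {A : Set (Fin m → ℝ)}, Good A → 0 < vA A)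
    (vT_dim_zero : ∀ (A : Set (Fin 0 → ℝ)) (z : Fin 0 → ℝ), vT A z = 1)
    (vA_dim_zero : ∀ {A : Set (Fin 0 → ℝ)}, Good A → vA A = 1)
    (star_mem : ∀ {m : ℕ} {A : Set (Fin m → ℝ)} {z : Fin m → ℝ}, Adm A z →
      ∀ ξ : Fin m → ℝ, (∀ i, 0 ≤ ξ i) → (∀ y ∈ posZ A z, ∑ i, y i * ξ i ≤ 1) →
      (fun i => z i + ξ i) ∈ A) :
    ∀ (m : ℕ) (A : Set (Fin m → ℝ)) (z : Fin m → ℝ), Adm A z → (tree m A z).Ok := by
  intro m
  induction m with
  | zero =>
    intro A z _
    exact trivial
  | succ n ih =>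
    intro A z h
    rw [tree_succ]
    have hV : 0 < vT A z := vT_pos h
    have hal : 0 < vA A := vA_pos h.good
    have hPz : 0 < ∏ i, z i := Finset.prod_pos (fun i _ => h.pos i)
    have hfac : (0 : ℝ) < ((n + 1).factorial : ℝ) := by exact_mod_cast Nat.factorial_pos _
    have hn1 : (0 : ℝ) < (n : ℝ) + 1 := by positivity
    refine ⟨by positivity, by positivity, fun i => ih _ _ (adm_sec h i), ?_⟩
    -- the vector xi
    obtain ⟨ξ, hξdef⟩ : ∃ ξ : Fin (n + 1) → ℝ, ∀ i,
        ξ i = vT (sec A i) (fun k => z (i.succAbove k)) / (((n : ℝ) + 1) * vT A z) :=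
      ⟨fun i => vT (sec A i) (fun k => z (i.succAbove k)) / (((n : ℝ) + 1) * vT A z),
        fun _ => rfl⟩
    have hVi : ∀ i, 0 < vT (sec A i) (fun k => z (i.succAbove k)) := fun i => vT_pos (adm_sec h i)
    have hξ : ∀ i, 0 ≤ ξ i := by
      intro i
      rw [hξdef]
      exact div_nonneg (hVi i).le (by positivity)
    -- step (1): the cone inequality on the positive polar
    have h1 : ∀ y ∈ posZ A z, ∑ i, y i * ξ i ≤ 1 := by
      intro y hy
      have hc := cone_ineq_convex n (posZ A z) (isCompact_posZ h) (convex_posZ A z)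
        (fun p hp => hp.1) y hy
      have hc' : ∑ i, ENNReal.ofReal (y i)
            * ENNReal.ofReal (vT (sec A i) (fun k => z (i.succAbove k)))
          ≤ ((n : ENNReal) + 1) * ENNReal.ofReal (vT A z) := by
        have e1 : ∀ i, ENNReal.ofReal (vT (sec A i) (fun k => z (i.succAbove k)))
            = volume (sec (posZ A z) i) := by
          intro i
          rw [sec_posZ h.good z i]
          exact ENNReal.ofReal_toReal (volume_posZ_ne_top (adm_sec h i))
        have e2 : ENNReal.ofReal (vT A z) = volume (posZ A z) :=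
          ENNReal.ofReal_toReal (volume_posZ_ne_top h)
        rw [e2]
        refine le_trans (le_of_eq ?_) hc
        exact Finset.sum_congr rfl (fun i _ => by rw [e1 i])
      have hr := cone_to_real n (fun i => hy.1 i) (fun i => (hVi i).le) hV.le hc'
      have e : ∑ i, y i * ξ i
          = (∑ i, y i * vT (sec A i) (fun k => z (i.succAbove k)))
            / (((n : ℝ) + 1) * vT A z) := by
        rw [Finset.sum_div]
        refine Finset.sum_congr rfl (fun i _ => ?_)
        rw [hξdef, mul_div_assoc]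
      rw [e, div_le_one (by positivity)]
      exact hr
    -- step (2): the point z + xi lies in A
    have h2 : (fun i => z i + ξ i) ∈ A := star_mem h ξ hξ h1
    -- step (3): the cone inequality for A at that point
    have h3 : ∑ i, (z i + ξ i) * vA (sec A i) ≤ ((n : ℝ) + 1) * vA A := by
      have hc := cone_all n A h.good.closed h.good.convex h.good.nonneg h.good.down _ h2
      have hc' : ∑ i, ENNReal.ofReal (z i + ξ i) * ENNReal.ofReal (vA (sec A i))
          ≤ ((n : ENNReal) + 1) * ENNReal.ofReal (vA A) := by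
        have e1 : ∀ i, ENNReal.ofReal (vA (sec A i)) = volume (sec A i) := fun i =>
          ENNReal.ofReal_toReal (good_vol_lt_top (adm_sec h i).good).ne
        have e2 : ENNReal.ofReal (vA A) = volume A :=
          ENNReal.ofReal_toReal (good_vol_lt_top h.good).ne
        rw [e2]
        refine le_trans (le_of_eq ?_) hc
        exact Finset.sum_congr rfl (fun i _ => by rw [e1 i]; rfl)
      exact cone_to_real n (fun i => add_nonneg (h.pos i).le (hξ i))
        (fun i => (vA_pos (adm_sec h i).good).le) hal.le hc'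
    -- step (4): the labels
    have hterm : ∀ i : Fin (n + 1),
        (1 + (tree n (sec A i) (fun k => z (i.succAbove k))).u
            / (((n + 1).factorial : ℝ) * vT A z * ∏ i, z i))
          * (tree n (sec A i) (fun k => z (i.succAbove k))).b
        = (n.factorial : ℝ) / (∏ i, z i) * ((z i + ξ i) * vA (sec A i)) := by
      intro i
      rw [tree_u vT_dim_zero, tree_b vA_dim_zero n _ _ (adm_sec h i).good, hξdef,
        Fin.prod_univ_succAbove z i, Nat.factorial_succ]
      have hzi : 0 < z i := h.pos i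
      have hPzi : 0 < ∏ k, z (i.succAbove k) := Finset.prod_pos (fun k _ => h.pos _)
      have hnf : (0 : ℝ) < (n.factorial : ℝ) := by exact_mod_cast Nat.factorial_pos _
      push_cast
      field_simp
    calc ∑ i, (1 + (tree n (sec A i) (fun k => z (i.succAbove k))).u
            / (((n + 1).factorial : ℝ) * vT A z * ∏ i, z i))
          * (tree n (sec A i) (fun k => z (i.succAbove k))).b
        = ∑ i, (n.factorial : ℝ) / (∏ i, z i) * ((z i + ξ i) * vA (sec A i)) :=
          Finset.sum_congr rfl (fun i _ => hterm i)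
      _ = (n.factorial : ℝ) / (∏ i, z i) * ∑ i, (z i + ξ i) * vA (sec A i) :=
          (Finset.mul_sum _ _ _).symm
      _ ≤ (n.factorial : ℝ) / (∏ i, z i) * (((n : ℝ) + 1) * vA A) :=
          mul_le_mul_of_nonneg_left h3 (by positivity)
      _ = ((n + 1).factorial : ℝ) * vA A / ∏ i, z i := by
          rw [Nat.factorial_succ]
          push_cast
          field_simp

end Vale.Agent.Lib.P248.H28Q
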